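import Vale.Agent.P227.Mirror.Main

/-!
P227: the logarithmic Brunn-Minkowski inequality for pairs with `n - 2` common linear reflections,
in particular for pairs in three-space with one common linear reflection.
-/

namespace Vale.Agent.Results.P227.CommonReflections

open Vale.Agent.P227.Zono Vale.Agent.P227.Mirror

theorem result :
    (∀ (m : ℕ) (T : (Fin (m + 2) → ℝ) ≃ₗ[ℝ] (Fin (m + 2) → ℝ))
      (K L : Set (Fin (m + 2) → ℝ)) (t : ℝ), IsBody K → IsBody L →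
      (∀ i : Fin (m + 2), (i : ℕ) < m → ∀ x ∈ K, T.symm (coordFlip i (T x)) ∈ K) →
      (∀ i : Fin (m + 2), (i : ℕ) < m → ∀ x ∈ L, T.symm (coordFlip i (T x)) ∈ L) →
      0 ≤ t → t ≤ 1 → vol K ^ (1 - t) * vol L ^ t ≤ vol (logComb K L t)) ∧
    (∀ (φ : (Fin 3 → ℝ) →ₗ[ℝ] ℝ) (e : Fin 3 → ℝ), φ e = 1 →
      ∀ (K L : Set (Fin 3 → ℝ)) (t : ℝ), IsBody K → IsBody L →
      (∀ x ∈ K, reflect φ e x ∈ K) → (∀ x ∈ L, reflect φ e x ∈ L) →
      0 ≤ t → t ≤ 1 → vol K ^ (1 - t) * vol L ^ t ≤ vol (logComb K L t)) :=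
  ⟨linearCoord, oneReflection⟩

end Vale.Agent.Results.P227.CommonReflections
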