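import Vale.Agent.P227.Pairs.Assembly
import Vale.Agent.P227.Pairs.Base
import Vale.Agent.P227.Pairs.Bridge
import Vale.Agent.P227.Pairs.LogMinkowski
import Vale.Agent.P227.Pairs.Statement

/-!
P227: the logarithmic Brunn-Minkowski and Minkowski inequalities for `d + 1` facet pairs.
-/

namespace Vale.Agent.Results.P227.FewFacetPairs

open Vale.Agent.P227.Pairs

theorem result : ∀ (d : ℕ), 3 ≤ d → ∀ u : Fin (d + 1) → EuclideanSpace ℝ (Fin d),
    (∀ j : Fin (d + 1), LinearIndependent ℝ (u ∘ j.succAbove)) →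
      PairIneq u ∧ ∀ a : Fin (d + 1) → ℝ, (∀ k, 0 < a k) → LocalForm u a ∧ LogMinkowskiIneq u a := by
  intro d hd u hu
  have hC := slabLogConcave BaseE.baseThree BaseE.inactiveLocal volumeBridge hd hu
  exact ⟨fun K L t hK hL h0 h1 => ⟨volume_le_slabs (by omega) hu hC hK hL ⟨h0, h1⟩,
      logBM_of_slabs (by omega) hu hC hK hL ⟨h0, h1⟩⟩,
    fun a ha => ⟨fun g hg => local_form (by omega) hu hC ha hg,
      logMinkowski BaseE.baseThree BaseE.inactiveLocal volumeBridge hd hu ha⟩⟩

end Vale.Agent.Results.P227.FewFacetPairs
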