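import Vale.Agent.P227.Mirror.SmoothLocal

/-!
P227: the local form of the logarithmic Brunn-Minkowski inequality at every smooth unconditional
body of three-space with positive curvature, against all even perturbations.
-/

namespace Vale.Agent.Results.P227.UnconditionalLocal

open Vale.Agent.P227.Zono Vale.Agent.P227.Mirror
open scoped Topology

theorem result :
    ∀ h g : (Fin 3 → ℝ) → ℝ, SmoothNorm h → (∀ i y, h (coordFlip i y) = h y) → EvenPert g →
      (∀ y, supp (wulffBody h) y = h y) ∧
      (∀ᶠ s in 𝓝 (0 : ℝ), IsBody (wulffBody fun y => h y * Real.exp (s * g y))) ∧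
      ∃ (F1 : ℝ → ℝ) (d : ℝ),
        (∀ᶠ s in 𝓝 (0 : ℝ), HasDerivAt
          (fun t => Real.log (vol (wulffBody fun y => h y * Real.exp (t * g y)))) (F1 s) s) ∧
        HasDerivAt F1 d 0 ∧ d ≤ 0 :=
  fun _ _ H hh G => unconditional_local H hh G

end Vale.Agent.Results.P227.UnconditionalLocal
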