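import Vale.Agent.P227.Zono.ConeAssembly
import Vale.Agent.P227.Zono.GaugeFacts
import Vale.Agent.P227.Zono.ConeLimit
import Vale.Agent.P227.Zono.ConePair

/-!
P227: the logarithmic Minkowski inequality, with the cone volume, of every zonoid against every
symmetric convex body, and the logarithmic Brunn-Minkowski inequality for every pair whose
logarithmic combination is a zonoid.
-/

namespace Vale.Agent.Results.P227.ZonoidLogMinkowski

open Vale.Agent.P227.Zono

theorem result : ZonoidConeLogMinkowski ∧ PairZonoid :=
  ⟨coneLimit gaugeFacts fun d => zonot_coneLogMinkowski (d + 1),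
    conePair gaugeFacts (coneLimit gaugeFacts fun d => zonot_coneLogMinkowski (d + 1))⟩

end Vale.Agent.Results.P227.ZonoidLogMinkowski
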